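import Vale.Agent.P015.Disk
import Vale.Agent.P015.REG
import Vale.Agent.P015.BLG
import Vale.Agent.P015.CPG
import Vale.Agent.P015.DIV
import Vale.Agent.P015.SIZ

/-!
# P015: lines and strips in the Gaussian moat problem
-/

namespace Vale.Agent.Results.P015.Combined

open Vale.P015

/-- (1) On every real line there are centres of arbitrarily large disks free of Gaussian primes,
arbitrarily far out in both directions. (2) An infinite path of distinct Gaussian primes with
bounded steps is, at arbitrarily late times, outside any given finite union of strips.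
(3) The connected components of the subgraph of `G_D` inside a strip are finite. (4) For every
`D` there is `c > 0` such that such a path is, arbitrarily far out, outside the growing region
`|Im z| ≤ c √(log (2 + |Re z|))`. -/
theorem result :
    (∀ a b c : ℝ, (a, b) ≠ (0, 0) → ∀ R T : ℝ, ∃ x y : ℝ,
      a * x + b * y = c ∧ T < -b * x + a * y ∧
      ∀ w : GaussianInt, ((w.re : ℝ) - x) ^ 2 + ((w.im : ℝ) - y) ^ 2 ≤ R ^ 2 →
        ¬ Irreducible w) ∧
    (∀ (D : ℝ) (z : ℕ → GaussianInt), IsPath D z → ∀ (m : ℕ) (a b c : Fin m → ℝ),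
      (∀ i, (a i, b i) ≠ (0, 0)) → ∀ (B : ℝ) (N : ℕ),
      ∃ n, N ≤ n ∧ ∀ i, B < |a i * (z n).re + b i * (z n).im - c i|) ∧
    (∀ D a b c B : ℝ, (a, b) ≠ (0, 0) → ∀ z : GaussianInt,
      {w | Relation.ReflTransGen (fun u v : GaussianInt => Irreducible u ∧ Irreducible v ∧
        ‖GaussianInt.toComplex u - GaussianInt.toComplex v‖ ≤ D ∧
        |a * u.re + b * u.im - c| ≤ B ∧ |a * v.re + b * v.im - c| ≤ B) z w}.Finite) ∧
    (∀ D : ℝ, ∃ c : ℝ, 0 < c ∧ ∀ z : ℕ → GaussianInt, IsPath D z → ∀ K : ℝ,
      ∃ n, K < ‖GaussianInt.toComplex (z n)‖ ∧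
        c * √(Real.log (2 + |((z n).re : ℝ)|)) < |((z n).im : ℝ)|) :=
  ⟨fun a b c hab R T => Disk.disks a b c hab R T,
    fun D z hz m a b c hab B N => Disk.unions D z hz m a b c hab B N,
    fun D a b c B hab z => Disk.comps D a b c B hab z,
    fun D => REG.thm (BLG.thm CPG.thm DIV.thm SIZ.thm) D⟩

end Vale.Agent.Results.P015.Combined
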