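import Vale.Agent.P015.REG
import Vale.Agent.P015.BLG
import Vale.Agent.P015.CPG
import Vale.Agent.P015.DIV
import Vale.Agent.P015.SIZ

/-!
# P015: an infinite path of Gaussian primes with bounded steps leaves the growing region
`|Im z| ≤ c √(log (2 + |Re z|))`
-/

namespace Vale.Agent.Results.P015.GrowingRegion

open Vale.P015

/-- For every `D` there is `c > 0` such that every infinite path of distinct Gaussian primes with
steps at most `D` is, arbitrarily far from the origin, outside the region
`|Im z| ≤ c √(log (2 + |Re z|))` around the real axis. -/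
theorem result (D : ℝ) : ∃ c : ℝ, 0 < c ∧ ∀ z : ℕ → GaussianInt, IsPath D z →
    ∀ K : ℝ, ∃ n, K < ‖GaussianInt.toComplex (z n)‖ ∧
      c * √(Real.log (2 + |((z n).re : ℝ)|)) < |((z n).im : ℝ)| :=
  REG.thm (BLG.thm CPG.thm DIV.thm SIZ.thm) D

end Vale.Agent.Results.P015.GrowingRegion
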