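import Vale.Agent.P015.UNI
import Vale.Agent.P015.COMP
import Vale.Agent.P015.PRI
import Vale.Agent.P015.RAT
import Vale.Agent.P015.BOX
import Vale.Agent.P015.KRO
import Vale.Agent.P015.CEN

/-!
# P015: an infinite path of Gaussian primes with bounded steps leaves every finite union of strips
-/

namespace Vale.Agent.Results.P015.StripUnions

open Vale.P015

theorem cen : StmtCEN := CEN.thm (RAT.thm COMP.thm PRI.thm) BOX.thm KRO.thm

/-- Every infinite path of distinct Gaussian primes with steps at most `D` is, at infinitely many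
times, outside any given finite union of strips `|a i * x + b i * y - c i| ≤ B`, with arbitrary
real directions. -/
theorem result (D : ℝ) (z : ℕ → GaussianInt) (hz : IsPath D z) (m : ℕ) (a b c : Fin m → ℝ)
    (hab : ∀ i, (a i, b i) ≠ (0, 0)) (B : ℝ) (N : ℕ) :
    ∃ n, N ≤ n ∧ ∀ i, B < |a i * (z n).re + b i * (z n).im - c i| := by
  obtain ⟨M, hM⟩ := (Set.finite_range fun i : Fin m => |c i|).bddAbove
  obtain ⟨n, hn⟩ := UNI.thm (FIN.thm cen) D _ (UNI.tail hz N) m a b hab (B + M)
  refine ⟨n + N, by omega, fun i => ?_⟩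
  have h1 := hn i
  have h2 : |c i| ≤ M := hM ⟨i, rfl⟩
  have h3 := abs_sub_abs_le_abs_sub (a i * ((z (n + N)).re : ℝ) + b i * (z (n + N)).im) (c i)
  linarith

end Vale.Agent.Results.P015.StripUnions
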