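import Vale.Agent.P015.CMP
import Vale.Agent.Results.P015.StripUnions

/-!
# P015: the components of the Gaussian prime graph inside strips are finite, and infinite paths
leave every finite union of strips
-/

namespace Vale.Agent.Results.P015.StripComponents

open Vale.P015

/-- The graph `G_D`: the vertices are the Gaussian primes, distinct ones are adjacent if their
Euclidean distance is at most `D`. -/
def G (D : ℝ) : SimpleGraph {z : GaussianInt // Irreducible z} where
  Adj z w := z ≠ w ∧ ‖GaussianInt.toComplex z - GaussianInt.toComplex w‖ ≤ D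
  symm := ⟨fun z w h => ⟨h.1.symm, by rw [norm_sub_rev]; exact h.2⟩⟩
  loopless := ⟨fun _ h => h.1 rfl⟩

/-- The Gaussian primes in the strip `|a x + b y - c| ≤ B`. -/
def strip (a b c B : ℝ) : Set {z : GaussianInt // Irreducible z} :=
  {z | |a * (z : GaussianInt).re + b * (z : GaussianInt).im - c| ≤ B}

/-- For every `D`: (1) for every strip, every connected component of the subgraph of `G_D` induced
on the strip is finite; (2) an infinite path with distinct vertices in `G_D` is, at infinitely many
times, outside any given finite union of strips. -/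
theorem result (D : ℝ) :
    (∀ a b c B : ℝ, (a, b) ≠ (0, 0) →
      ∀ C : ((G D).induce (strip a b c B)).ConnectedComponent, C.supp.Finite) ∧
    (∀ z : ℕ → {z : GaussianInt // Irreducible z}, Function.Injective z →
      (∀ n, (G D).Adj (z n) (z (n + 1))) →
      ∀ (m : ℕ) (a b c : Fin m → ℝ), (∀ i, (a i, b i) ≠ (0, 0)) → ∀ (B : ℝ) (N : ℕ),
        ∃ n, N ≤ n ∧ ∀ i, z n ∉ strip (a i) (b i) (c i) B) := by
  refine ⟨fun a b c B hab C => ?_, fun z hz hadj m a b c hab B N => ?_⟩
  · induction C using SimpleGraph.ConnectedComponent.ind with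
    | h v =>
      have hfin := CMP.thm StripUnions.cen D a b (B + |c|) hab (v.1.1)
      have hin : ∀ w : {z // z ∈ strip a b c B}, |a * w.1.1.re + b * w.1.1.im| ≤ B + |c| := by
        intro w
        have h1 : |a * (w.1.1.re : ℝ) + b * w.1.1.im - c| ≤ B := w.2
        have h2 := abs_sub_abs_le_abs_sub (a * (w.1.1.re : ℝ) + b * w.1.1.im) c
        linarith
      have hsub : (((G D).induce (strip a b c B)).connectedComponentMk v).supp ⊆
          (fun w : {z // z ∈ strip a b c B} => (w.1.1 : GaussianInt)) ⁻¹'
            {w | Relation.ReflTransGen (StripEdge D a b (B + |c|)) v.1.1 w} := by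
        intro w hw
        rw [SimpleGraph.ConnectedComponent.mem_supp_iff, SimpleGraph.ConnectedComponent.eq] at hw
        have h1 := (SimpleGraph.reachable_iff_reflTransGen _ _).mp hw.symm
        refine Relation.ReflTransGen.lift
          (fun w : {z // z ∈ strip a b c B} => (w.1.1 : GaussianInt)) (fun x y hxy => ?_) _ _ h1
        have h2 : (G D).Adj x.1 y.1 := hxy
        exact ⟨x.1.2, y.1.2, h2.2, hin x, hin y⟩
      refine (hfin.preimage ?_).subset hsub
      intro x _ y _ hxy
      exact Subtype.ext (Subtype.ext hxy)
  · have hpath : IsPath D fun n => (z n : GaussianInt) :=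
      ⟨fun i j h => hz (Subtype.ext h), fun n => (z n).2, fun n => (hadj n).2⟩
    obtain ⟨n, hn, h⟩ := StripUnions.result D _ hpath m a b c hab B N
    exact ⟨n, hn, fun i hi => absurd (h i) (not_lt.mpr hi)⟩

end Vale.Agent.Results.P015.StripComponents
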